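import Vale.Agent.P329.Bdl.B1
import Vale.Agent.P329.Bdl.K_Bdl_K_Known
import Vale.Agent.P329.Bdl.B2

/-! Sums over positions and visit counts of potential-increasing automata. -/

namespace Vale.Agent.P329.S4

section sm

variable {α : Type} {B : Type} [AddCommMonoid B]

/-- auxiliary: recursion on the reversed word -/
def smR (F : List α → α → B) : List α → B
  | [] => 0
  | x :: u => smR F u + F u.reverse x

/-- the sum of `F (prefix before t) (letter at t)` over all positions `t` of the word -/
def sm (F : List α → α → B) (w : List α) : B := smR F w.reverse

theorem sm_nil (F : List α → α → B) : sm F [] = 0 := rfl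

theorem sm_snoc (F : List α → α → B) (w : List α) (x : α) :
    sm F (w ++ [x]) = sm F w + F w x := by
  rw [sm, List.reverse_append, List.reverse_singleton, List.singleton_append, smR,
    List.reverse_reverse]
  rfl

theorem sm_congr {F G : List α → α → B} (h : ∀ u x, F u x = G u x) (w : List α) :
    sm F w = sm G w := by
  have : F = G := funext fun u => funext fun x => h u x
  rw [this]

theorem sm_add (F G : List α → α → B) (w : List α) :
    sm (fun u x => F u x + G u x) w = sm F w + sm G w := by
  induction w using List.reverseRecOn with
  | nil => rw [sm_nil, sm_nil, sm_nil, add_zero]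
  | append_singleton w x ih => rw [sm_snoc, sm_snoc, sm_snoc, ih, add_add_add_comm]

theorem sm_zero (w : List α) : sm (fun _ _ => (0 : B)) w = 0 := by
  induction w using List.reverseRecOn with
  | nil => rfl
  | append_singleton w x ih => rw [sm_snoc, ih, add_zero]

theorem sm_sum {ι : Type} (s : Finset ι) (F : ι → List α → α → B) (w : List α) :
    sm (fun u x => ∑ i ∈ s, F i u x) w = ∑ i ∈ s, sm (F i) w := by
  classical
  induction s using Finset.induction_on with
  | empty => simp only [Finset.sum_empty]; exact sm_zero w
  | insert a s ha ih =>
    rw [Finset.sum_insert ha, ← ih, ← sm_add]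
    exact sm_congr (fun u x => Finset.sum_insert ha) w

theorem sm_hom {C : Type} [AddCommMonoid C] (φ : B →+ C) (F : List α → α → B) (w : List α) :
    φ (sm F w) = sm (fun u x => φ (F u x)) w := by
  induction w using List.reverseRecOn with
  | nil => rw [sm_nil, sm_nil, map_zero]
  | append_singleton w x ih => rw [sm_snoc, sm_snoc, map_add, ih]

end sm

section vis

variable {α : Type} {B : Type} [AddCommMonoid B]

open Classical in
/-- the sum of `F (prefix before t)` over the positions `t` of the letter `b` -/
noncomputable def at_ (b : α) (F : List α → B) (w : List α) : B :=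
  sm (fun u x => if x = b then F u else 0) w

theorem at_nil (b : α) (F : List α → B) : at_ b F [] = 0 := rfl

open Classical in
theorem at_snoc (b : α) (F : List α → B) (w : List α) (x : α) :
    at_ b F (w ++ [x]) = at_ b F w + if x = b then F w else 0 := sm_snoc _ _ _

theorem at_congr {b : α} {F G : List α → B} (h : ∀ u, F u = G u) (w : List α) :
    at_ b F w = at_ b G w := by
  have : F = G := funext h
  rw [this]

theorem at_add (b : α) (F G : List α → B) (w : List α) :
    at_ b (fun u => F u + G u) w = at_ b F w + at_ b G w := by
  classical
  induction w using List.reverseRecOn with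
  | nil => rw [at_nil, at_nil, at_nil, add_zero]
  | append_singleton w x ih =>
    rw [at_snoc, at_snoc, at_snoc, ih]
    by_cases hx : x = b
    · rw [if_pos hx, if_pos hx, if_pos hx, add_add_add_comm]
    · rw [if_neg hx, if_neg hx, if_neg hx, add_zero, add_zero, add_zero]

theorem at_zero (b : α) (w : List α) : at_ b (fun _ => (0 : B)) w = 0 := by
  classical
  induction w using List.reverseRecOn with
  | nil => rfl
  | append_singleton w x ih => rw [at_snoc, ih, ite_self, add_zero]

theorem at_sum {ι : Type} (s : Finset ι) (b : α) (F : ι → List α → B) (w : List α) :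
    at_ b (fun u => ∑ i ∈ s, F i u) w = ∑ i ∈ s, at_ b (F i) w := by
  classical
  induction s using Finset.induction_on with
  | empty => simp only [Finset.sum_empty]; exact at_zero b w
  | insert a s ha ih =>
    rw [Finset.sum_insert ha, ← ih, ← at_add]
    exact at_congr (fun u => Finset.sum_insert ha) w

theorem at_hom {C : Type} [AddCommMonoid C] (φ : B →+ C) (b : α) (F : List α → B)
    (w : List α) : φ (at_ b F w) = at_ b (fun u => φ (F u)) w := by
  classical
  induction w using List.reverseRecOn with
  | nil => rw [at_nil, at_nil, map_zero]
  | append_singleton w x ih => rw [at_snoc, at_snoc, map_add, ih, apply_ite φ, map_zero]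

theorem acc_eq_at (b : α) (F : List α → ℤ) (w : List α) : acc b F w = at_ b F w := by
  classical
  induction w using List.reverseRecOn with
  | nil => rfl
  | append_singleton w x ih => rw [acc_snoc, at_snoc, ih]

theorem W_eq_at {Q : Type} (act : Q → α → Q) (x : α) (Φ : Q → ℤ) (q : Q) (w : List α) :
    W act x Φ q w = at_ x (fun u => Φ (u.foldl act q)) w := by
  rw [W_eq_acc, acc_eq_at]

end vis

section auto

variable {α σ : Type} (step : σ → α → σ) (z : σ)

open Classical in
/-- every arrival at `z` is an event -/
noncomputable def eA (s : σ) (x : α) : Option σ := if step s x = z then none else some (step s x)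

open Classical in
/-- the same, but the letter `b` at `z` is silent -/
noncomputable def eB (b : α) (s : σ) (x : α) : Option σ :=
  if step s x = z then (if s = z ∧ x = b then some z else none) else some (step s x)

/-- transitions not ending in `z` are loops or increase the potential -/
def PotOK (pot : σ → ℕ) : Prop :=
  ∀ s x, step s x = z ∨ step s x = s ∨ pot s < pot (step s x)

variable {step z}

theorem eA_noCyc {pot : σ → ℕ} (h : PotOK step z pot) : NoCyc (eA step z) := by
  apply noCyc_of_pot pot
  intro s x t ht
  unfold eA at ht
  by_cases h0 : step s x = z
  · rw [if_pos h0] at ht; cases ht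
  · rw [if_neg h0] at ht
    cases ht
    exact (h s x).resolve_left h0

theorem eB_noCyc {pot : σ → ℕ} (h : PotOK step z pot) (b : α) : NoCyc (eB step z b) := by
  apply noCyc_of_pot pot
  intro s x t ht
  unfold eB at ht
  by_cases h0 : step s x = z
  · rw [if_pos h0] at ht
    by_cases h1 : s = z ∧ x = b
    · rw [if_pos h1] at ht
      cases ht
      exact Or.inl h1.1.symm
    · rw [if_neg h1] at ht; cases ht
  · rw [if_neg h0] at ht
    cases ht
    exact (h s x).resolve_left h0

theorem fin_eA (w : List α) (s : σ) : fin (eA step z) z s w = w.foldl step s := by
  induction w generalizing s with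
  | nil => rfl
  | cons y w ih =>
    by_cases h0 : step s y = z
    · rw [fin_cons_none w (if_pos h0), ih, List.foldl_cons, h0]
    · rw [fin_cons_some w (if_neg h0), ih, List.foldl_cons]

theorem eAB_formula {b : α} (hb : step z b = z) (w : List α) (s : σ) :
    (cnt (eA step z) z s w : ℤ) - cnt (eB step z b) z s w = W step b (ind z) s w := by
  classical
  induction w generalizing s with
  | nil => simp [cnt_nil, W_nil]
  | cons y w ih =>
    rw [W_cons]
    by_cases h1 : step s y = z
    · have e1 : eA step z s y = none := if_pos h1
      have ih0 := ih z
      rw [cnt_cons_none w e1, h1]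
      by_cases h2 : s = z ∧ y = b
      · have e2 : eB step z b s y = some z := (if_pos h1).trans (if_pos h2)
        rw [cnt_cons_some w e2, if_pos h2.2, h2.1, ind_self]
        push_cast
        linarith only [ih0]
      · have e2 : eB step z b s y = none := (if_pos h1).trans (if_neg h2)
        have h3 : (if y = b then ind z s else 0) = 0 := by
          by_cases h4 : y = b
          · rw [if_pos h4]
            exact ind_ne fun h => h2 ⟨h, h4⟩
          · rw [if_neg h4]
        rw [cnt_cons_none w e2, h3]
        push_cast
        linarith only [ih0]
    · have e1 : eA step z s y = some (step s y) := if_neg h1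
      have e2 : eB step z b s y = some (step s y) := if_neg h1
      rw [cnt_cons_some w e1, cnt_cons_some w e2]
      have h3 : (if y = b then ind z s else 0) = 0 := by
        by_cases h4 : y = b
        · rw [if_pos h4]
          refine ind_ne fun h => h1 ?_
          rw [h4, h, hb]
        · rw [if_neg h4]
      rw [h3, zero_add]
      exact ih (step s y)

theorem fold_known [Finite α] [Finite σ] {pot : σ → ℕ} (h : PotOK step z pot) (s : σ) :
    Kn fun w : List α => w.foldl step s := by
  have h1 := Kn.of_event (eA_noCyc h) z s
  have h2 : (fin (eA step z) z s) = fun w : List α => w.foldl step s :=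
    funext fun w => fin_eA w s
  rw [← h2]; exact h1

theorem visit_known [Finite α] [Finite σ] {pot : σ → ℕ} (h : PotOK step z pot) {b : α}
    (hb : step z b = z) (s : σ) : KnZ (W step b (ind z) s) := by
  have h1 := KnZ.of_event (eA_noCyc h) z s
  have h2 := KnZ.of_event (eB_noCyc h b) z s
  exact (h1.sub h2).congr fun w => (eAB_formula hb w s).symm

end auto

end Vale.Agent.P329.S4
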