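import Mathlib.GroupTheory.Perm.Basic

namespace Vale.Agent.P329

/-- The group `G` has a homomorphism to the symmetric group on three points whose kernel consists
of elements of order at most two. Equivalently: `G` has an elementary abelian normal
`2`-subgroup `E` such that `G / E` is isomorphic to a subgroup of the symmetric group on three
points. -/
def ElementaryTwoByS3 (G : Type) [Group G] : Prop :=
  ∃ q : G →* Equiv.Perm (Fin 3), ∀ g : G, q g = 1 → g * g = 1

end Vale.Agent.P329
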