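import Mathlib.Data.ZMod.Basic
import Mathlib.GroupTheory.Perm.Basic
import Mathlib.Data.Fintype.Perm
import Mathlib.Algebra.BigOperators.Fin
import Mathlib.Data.Fin.VecNotation

/-! Finite checks in the symmetric group on three points acting on a plane over `ZMod 2`. -/

namespace Vale.Agent.P329.S4

/-- the permutations of three points -/
abbrev S3 : Type := Equiv.Perm (Fin 3)

/-- the plane over the field with two elements -/
abbrev V : Type := ZMod 2 × ZMod 2

/-- the vector as a function with sum zero -/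
def co (v : V) (i : Fin 3) : ZMod 2 := if i = 0 then v.1 else if i = 1 then v.2 else v.1 + v.2

/-- permutation of the coordinates -/
def ac (π : S3) (v : V) : V := (co v (π.symm 0), co v (π.symm 1))

theorem co_ac : ∀ (π : S3) (v : V) (i : Fin 3), co (ac π v) i = co v (π.symm i) := by
  decide

theorem co_inj : ∀ v w : V, (∀ i, co v i = co w i) → v = w := by decide

theorem ac_one (v : V) : ac 1 v = v := by
  apply co_inj
  intro i
  rw [co_ac]; rfl

theorem ac_mul (π ρ : S3) (v : V) : ac (π * ρ) v = ac π (ac ρ v) := by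
  apply co_inj
  intro i
  rw [co_ac, co_ac, co_ac]; rfl

theorem co_add (v w : V) (i : Fin 3) : co (v + w) i = co v i + co w i := by
  unfold co
  split_ifs
  · rfl
  · rfl
  · exact add_add_add_comm v.1 w.1 v.2 w.2

theorem ac_add (π : S3) (v w : V) : ac π (v + w) = ac π v + ac π w := by
  apply co_inj
  intro i
  rw [co_ac, co_add, co_add, co_ac, co_ac]

theorem ac_zero (π : S3) : ac π 0 = 0 := by
  have h := ac_add π 0 0
  rw [add_zero] at h
  exact left_eq_add.1 h

/-- the parity of a permutation -/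
def s2 (π : S3) : ZMod 2 :=
  (if π 1 < π 0 then 1 else 0) + (if π 2 < π 0 then 1 else 0) + (if π 2 < π 1 then 1 else 0)

theorem s2_mul : ∀ π ρ : S3, s2 (π * ρ) = s2 π + s2 ρ := by decide

theorem s2_one : s2 1 = 0 := by decide

/-- potentials -/
def pot (σ : S3) (v : V) : ℕ :=
  if v = 0 then 0 else (σ (if v.2 = 0 then 0 else if v.1 = 0 then 1 else 2)).val + 1

/-- the transition at the letter with values `π`, `u` is good for the potential -/
def adm (σ π : S3) (u : V) : Prop :=
  ∀ m : V, ac π⁻¹ (m + u) = 0 ∨ ac π⁻¹ (m + u) = m ∨ pot σ m < pot σ (ac π⁻¹ (m + u))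

instance (σ π : S3) (u : V) : Decidable (adm σ π u) :=
  inferInstanceAs (Decidable (∀ _ : V, _))

theorem adm_ex : ∀ σ π : S3, ∃ u : V, adm σ π u ∧ (π = 1 → u = 0) := by decide

theorem adm_diff : ∀ (π : S3) (v : V), ac π v ≠ v →
    ∃ (σ : S3) (u u' : V), adm σ π u ∧ adm σ π u' ∧ u + u' = v := by decide

theorem decomp : ∀ π : S3, π ≠ 1 → ∀ v : V, ∃ v' v'' : V,
    (ac π v' ≠ v' ∨ v' = 0) ∧ (ac π v'' ≠ v'' ∨ v'' = 0) ∧ v' + v'' = v := by decide

/-- the three nonzero vectors -/
def vj (j : Fin 3) : V := if j = 0 then (0, 1) else if j = 1 then (1, 0) else (1, 1)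

theorem delta_formula : ∀ π r : S3, (if π = r then 1 else 0 : ZMod 2) =
    (if s2 π = s2 r then 1 else 0) + ((co (ac π (vj 0)) (r 0) + co (ac π (vj 1)) (r 1)) +
      co (ac π (vj 2)) (r 2)) := by decide

end Vale.Agent.P329.S4
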