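import Mathlib.Data.Fintype.Perm
import Vale.Agent.P329.S4.Class

/-! The symmetric group on four points. -/

namespace Vale.Agent.P329.S4

/-- the partition into two pairs containing the pair `a`, `b` of distinct points -/
def pairing (a b : Fin 4) : Fin 3 :=
  if (a = 0 ∧ b = 1) ∨ (a = 1 ∧ b = 0) ∨ (a = 2 ∧ b = 3) ∨ (a = 3 ∧ b = 2) then 0
  else if (a = 0 ∧ b = 2) ∨ (a = 2 ∧ b = 0) ∨ (a = 1 ∧ b = 3) ∨ (a = 3 ∧ b = 1) then 1
  else 2

/-- action on the partitions into two pairs -/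
def qf (π : Equiv.Perm (Fin 4)) (i : Fin 3) : Fin 3 := pairing (π 0) (π i.succ)

theorem pairing_perm : ∀ (π : Equiv.Perm (Fin 4)) (a b : Fin 4), a ≠ b →
    pairing (π a) (π b) = qf π (pairing a b) := by
  decide +kernel

theorem pairing_zero : ∀ i : Fin 3, pairing 0 i.succ = i := by decide

theorem qf_mul (π ρ : Equiv.Perm (Fin 4)) (i : Fin 3) : qf (π * ρ) i = qf π (qf ρ i) := by
  rw [qf, qf]
  exact pairing_perm π (ρ 0) (ρ i.succ) (fun h => (Fin.succ_ne_zero i).symm (ρ.injective h))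

theorem qf_one (i : Fin 3) : qf 1 i = i := pairing_zero i

/-- the homomorphism to the symmetric group on three points -/
def qh : Equiv.Perm (Fin 4) →* Equiv.Perm (Fin 3) where
  toFun π := ⟨qf π, qf π⁻¹, fun i => by rw [← qf_mul, inv_mul_cancel, qf_one],
    fun i => by rw [← qf_mul, mul_inv_cancel, qf_one]⟩
  map_one' := Equiv.ext qf_one
  map_mul' π ρ := Equiv.ext (qf_mul π ρ)

theorem qf_ker : ∀ π : Equiv.Perm (Fin 4), (∀ i, qf π i = i) → π * π = 1 := by
  decide +kernel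

theorem four : ElementaryTwoByS3 (Equiv.Perm (Fin 4)) :=
  ⟨qh, fun π h => qf_ker π fun i => DFunLike.congr_fun h i⟩

end Vale.Agent.P329.S4
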