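import Vale.Agent.P329.S4.Sym
import Vale.Agent.P329.S4.Class

/-! Groups with an elementary abelian normal `2`-subgroup and quotient embeddable into the symmetric
group on three points. -/

namespace Vale.Agent.P329.S4

open Vale.Agent.P329

theorem pow_two_val {H : Type} [Group H] (hH : ∀ h : H, h * h = 1) (x : H) (m : ℤ) :
    x ^ ((m : ℤ) : ZMod 2).val = x ^ m := by
  have h1 : ((((m : ℤ) : ZMod 2).val : ℕ) : ℤ) = m % 2 := by
    have := ZMod.val_intCast (n := 2) m
    exact_mod_cast this
  have h2 : x ^ (2 : ℤ) = 1 := by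
    have : (2 : ℤ) = 1 + 1 := rfl
    rw [this, zpow_add, zpow_one, hH]
  rw [← zpow_natCast, h1]
  conv_rhs => rw [← Int.emod_add_mul_ediv m 2, zpow_add, zpow_mul, h2, one_zpow, mul_one]

theorem Pr_known2 {α Q : Type} [Finite α] [Finite Q] {act : Q → α → Q} {H : Type} [CommGroup H]
    [Finite H] (hH : ∀ h : H, h * h = 1) (q : Q)
    (hk : ∀ x r, Kn fun w : List α => ((W act x (ind r) q w : ℤ) : ZMod 2))
    (c : Q → α → H) : Kn (Pr act c q) := by
  have := Fintype.ofFinite α
  have := Fintype.ofFinite Q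
  have h1 : Kn fun w => fun (ry : Q × α) =>
      ((W act ry.2 (ind ry.1) q w : ℤ) : ZMod 2) :=
    Kn.pi fun ry => hk ry.2 ry.1
  have h2 := h1.comp fun t => ∏ r : Q, ∏ y : α, c r y ^ (t (r, y)).val
  have h3 : Pr act c q = fun w => ∏ r : Q, ∏ y : α, c r y ^
      (((W act y (ind r) q w : ℤ) : ZMod 2)).val := by
    funext w
    rw [Pr_formula]
    refine Finset.prod_congr rfl fun r _ => Finset.prod_congr rfl fun y _ => ?_
    rw [pow_two_val hH]
  rw [h3]
  exact h2

/-- The product of the values of the letters in such a group is determined by languages of star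
height one. -/
theorem e2s3_known {α : Type} [Finite α] {G : Type} [Group G] [Finite G]
    (hG : ElementaryTwoByS3 G) (f : α → G) : Kn fun w : List α => (w.map f).prod := by
  classical
  obtain ⟨q, hq⟩ := hG
  let cA : CommGroup q.ker :=
    { (inferInstance : Group q.ker) with
      mul_comm := by
        intro a b
        have ha : a * a = 1 := Subtype.ext (hq a a.2)
        have hb : b * b = 1 := Subtype.ext (hq b b.2)
        have hab : (a * b) * (a * b) = 1 := Subtype.ext (hq (a * b) (q.ker.mul_mem a.2 b.2))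
        have h1 : a⁻¹ = a := inv_eq_of_mul_eq_one_right ha
        have h2 : b⁻¹ = b := inv_eq_of_mul_eq_one_right hb
        have h3 : (a * b)⁻¹ = a * b := inv_eq_of_mul_eq_one_right hab
        rw [← h3, mul_inv_rev, h1, h2] }
  have hH : ∀ h : q.ker, h * h = 1 := fun h => Subtype.ext (hq h h.2)
  have hs0 : ∀ r : S3, ∃ g : G, (∃ g', q g' = r) → q g = r := by
    intro r
    by_cases h : ∃ g', q g' = r
    · exact ⟨h.choose, fun _ => h.choose_spec⟩
    · exact ⟨1, fun h' => absurd h' h⟩
  choose s hs using hs0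
  have hmem : ∀ (r : S3) (y : α), (∃ g, q g = r) →
      s r * f y * (s (r * q (f y)))⁻¹ ∈ q.ker := by
    rintro r y ⟨g, hg⟩
    rw [MonoidHom.mem_ker, map_mul, map_mul, map_inv, hs r ⟨g, hg⟩,
      hs (r * q (f y)) ⟨g * f y, by rw [map_mul, hg]⟩]
    exact mul_inv_cancel _
  let c : S3 → α → q.ker := fun r y =>
    if h : ∃ g, q g = r then ⟨_, hmem r y h⟩ else 1
  have h1 : Kn (Pr (fun (r : S3) y => r * q (f y)) c 1) :=
    Pr_known2 hH 1 (fun x r => W2_known (fun y => q (f y)) x r) c
  have h2 : Kn fun w : List α => (w.map fun y => q (f y)).prod := pf_known fun y => q (f y)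
  have h3 : ∀ (w : List α) (r : S3), (∃ g, q g = r) →
      ((Pr (fun (r : S3) y => r * q (f y)) c r w : q.ker) : G) =
      s r * (w.map f).prod * (s (r * (w.map fun y => q (f y)).prod))⁻¹ := by
    intro w
    induction w with
    | nil =>
      intro r _
      simp only [Pr_nil, OneMemClass.coe_one, List.map_nil, List.prod_nil, mul_one, mul_inv_cancel]
    | cons y w ih =>
      rintro r ⟨g, hg⟩
      have hr : ∃ g, q g = r := ⟨g, hg⟩
      have hr' : ∃ g', q g' = r * q (f y) := ⟨g * f y, by rw [map_mul, hg]⟩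
      rw [Pr_cons, Subgroup.coe_mul, ih _ hr']
      have hc : ((c r y : q.ker) : G) = s r * f y * (s (r * q (f y)))⁻¹ := by
        simp only [c]
        rw [dif_pos hr]
      rw [hc]
      simp only [List.map_cons, List.prod_cons]
      rw [← mul_assoc r]
      group
  have h4 := h1.comp₂ h2 fun a r => (s 1)⁻¹ * (a : G) * s (1 * r)
  have h5 : (fun w : List α => (w.map f).prod) = fun w =>
      (s 1)⁻¹ * ((Pr (fun (r : S3) y => r * q (f y)) c 1 w : q.ker) : G) *
        s (1 * (w.map fun y => q (f y)).prod) := by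
    funext w
    rw [h3 w 1 ⟨1, map_one q⟩]
    group
  rw [h5]
  exact h4

end Vale.Agent.P329.S4
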