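import Vale.Agent.P329.S4.Base
import Vale.Agent.P329.S4.Fin

/-! The occurrences of a letter after a prefix with given value in the symmetric group on three
points, counted modulo two. -/

namespace Vale.Agent.P329.S4

open Vale.Agent.P329

section

variable {α : Type} (f : α → S3)

/-- value of a word -/
def pf (u : List α) : S3 := (u.map f).prod

theorem pf_nil : pf f [] = 1 := rfl

theorem pf_snoc (u : List α) (x : α) : pf f (u ++ [x]) = pf f u * f x := by
  rw [pf, List.map_append, List.prod_append, List.map_singleton, List.prod_singleton]; rfl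

/-- parity as a homomorphism -/
def s2h : S3 →* Multiplicative (ZMod 2) where
  toFun π := Multiplicative.ofAdd (s2 π)
  map_one' := by rw [s2_one]; rfl
  map_mul' π ρ := by rw [s2_mul]; rfl

theorem mem_ker {π : S3} : π ∈ s2h.ker ↔ s2 π = 0 := by
  rw [MonoidHom.mem_ker]; exact Iff.rfl

theorem d1 : ∀ a b : S3, s2 a = 0 → s2 b = 0 → a * b = b * a := by decide
theorem d2 : ∀ g h : S3, s2 (g * h * g⁻¹ * h⁻¹) = 0 := by decide
theorem d3 : ∀ g : S3, s2 (g ^ 2) = 0 := by decide

theorem pf_known [Finite α] : Kn (pf f) :=
  group_known (p := 2) Nat.prime_two s2h.ker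
    (fun a ha b hb => d1 a b (mem_ker.1 ha) (mem_ker.1 hb))
    (fun g h => mem_ker.2 (d2 g h)) (fun g => mem_ker.2 (d3 g)) f

/-- the plane part of the value of a word -/
def X (κ : α → V) (w : List α) : V := sm (fun u a => ac (pf f u) (κ a)) w

theorem X_nil (κ : α → V) : X f κ [] = 0 := rfl

theorem X_snoc (κ : α → V) (w : List α) (x : α) :
    X f κ (w ++ [x]) = X f κ w + ac (pf f w) (κ x) := sm_snoc _ _ _

theorem X_add (κ κ' : α → V) (w : List α) :
    X f (fun a => κ a + κ' a) w = X f κ w + X f κ' w := by
  rw [X, X, X, ← sm_add]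
  exact sm_congr (fun u a => ac_add _ _ _) w

theorem X_zero (w : List α) : X f (fun _ => 0) w = 0 := by
  rw [X]
  refine (sm_congr (fun u a => ac_zero _) w).trans (sm_zero w)

/-- transition -/
def step (κ : α → V) (m : V) (a : α) : V := ac (f a)⁻¹ (m + κ a)

theorem ac_inv_ac (π : S3) (v : V) : ac π⁻¹ (ac π v) = v := by
  rw [← ac_mul, inv_mul_cancel, ac_one]

theorem ac_ac_inv (π : S3) (v : V) : ac π (ac π⁻¹ v) = v := by
  rw [← ac_mul, mul_inv_cancel, ac_one]

theorem fold_step (κ : α → V) (g : V) (w : List α) :
    w.foldl (step f κ) g = ac (pf f w)⁻¹ (g + X f κ w) := by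
  induction w using List.reverseRecOn with
  | nil => rw [List.foldl_nil, pf_nil, X_nil, inv_one, ac_one, add_zero]
  | append_singleton w x ih =>
    rw [List.foldl_append, List.foldl_cons, List.foldl_nil, ih, X_snoc, pf_snoc, mul_inv_rev,
      ac_mul, ← add_assoc, ac_add (pf f w)⁻¹ _ (ac (pf f w) (κ x)), ac_inv_ac]
    rfl

theorem vv : ∀ v : V, v + v = 0 := by decide

/-- the letter values are good for the potential -/
def Adm (σ : S3) (κ : α → V) : Prop := ∀ a, adm σ (f a) (κ a)

variable {f}

theorem Adm.potOK {σ : S3} {κ : α → V} (h : Adm f σ κ) : PotOK (step f κ) 0 (pot σ) :=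
  fun s x => h x s

theorem X_known [Finite α] {σ : S3} {κ : α → V} (h : Adm f σ κ) : Kn (X f κ) := by
  have h1 := (pf_known f).comp₂ (fold_known h.potOK 0) fun q m => ac q m
  refine Eq.mp (congrArg Kn ?_) h1
  funext w
  rw [fold_step, ac_ac_inv, zero_add]

theorem ind_eq {κ : α → V} (g : V) (u : List α) :
    ind 0 (u.foldl (step f κ) g) = ind g (X f κ u) := by
  rw [fold_step]
  by_cases h : X f κ u = g
  · rw [h, vv, ac_zero, ind_self, ind_self]
  · rw [ind_ne h]
    apply ind_ne
    intro h1
    apply h
    have h2 := congrArg (ac (pf f u)) h1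
    rw [ac_ac_inv, ac_zero] at h2
    have h3 : g + (g + X f κ u) = g := by rw [h2, add_zero]
    rw [← add_assoc, vv, zero_add] at h3
    exact h3

theorem visit_X [Finite α] {σ : S3} {κ : α → V} (h : Adm f σ κ) {b : α}
    (hκ : κ b = 0) (g : V) : KnZ (at_ b fun u => ind g (X f κ u)) := by
  have hs : step f κ 0 b = 0 := by rw [step, hκ, add_zero, ac_zero]
  refine (visit_known h.potOK hs g).congr fun w => ?_
  rw [W_eq_at]
  exact at_congr (fun u => (ind_eq g u).symm) w

/-- integers acting on a vector -/
def zv (g : V) : ℤ →+ V where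
  toFun n := ((n : ZMod 2) * g.1, (n : ZMod 2) * g.2)
  map_zero' := by simp
  map_add' m n := by
    ext
    · show ((m + n : ℤ) : ZMod 2) * g.1 = _
      rw [Int.cast_add, add_mul]; rfl
    · show ((m + n : ℤ) : ZMod 2) * g.2 = _
      rw [Int.cast_add, add_mul]; rfl

theorem zv_one (g : V) : zv g 1 = g := by
  show (((1 : ℤ) : ZMod 2) * g.1, ((1 : ℤ) : ZMod 2) * g.2) = g
  rw [Int.cast_one, one_mul, one_mul]

theorem zv_known {N : List α → ℤ} (h : KnZ N) (g : V) : Kn fun w => zv g (N w) :=
  (h 2 two_pos).comp fun t => (t * g.1, t * g.2)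

theorem sum_ind (v : V) : ∑ g : V, zv g (ind g v) = v := by
  rw [Finset.sum_eq_single v]
  · rw [ind_self, zv_one]
  · intro g _ hg
    rw [ind_ne (Ne.symm hg), map_zero]
  · intro h; exact absurd (Finset.mem_univ _) h

theorem atX_known [Finite α] {σ : S3} {κ : α → V} (h : Adm f σ κ) {b : α}
    (hκ : κ b = 0) : Kn (at_ b (X f κ)) := by
  have h1 : Kn fun w => fun g : V => zv g (at_ b (fun u => ind g (X f κ u)) w) :=
    Kn.pi fun g => zv_known (visit_X h hκ g) g
  have h2 := h1.comp fun t => ∑ g : V, t g
  refine Eq.mp (congrArg Kn ?_) h2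
  funext w
  rw [Finset.sum_congr rfl fun g _ => at_hom (zv g) b _ w, ← at_sum]
  exact at_congr (fun u => sum_ind _) w

/-- both counting functions attached to `κ` are known -/
def Good (f : α → S3) (κ : α → V) : Prop :=
  Kn (X f κ) ∧ ∀ b, f b = 1 → Kn (at_ b (X f κ))

theorem Good.zero : Good f fun _ => 0 := by
  have h : X f (fun _ => 0) = fun _ => 0 := funext fun w => X_zero f w
  constructor
  · rw [h]; exact Kn.const 0
  · intro b _
    rw [h]
    have h1 : at_ b (fun _ : List α => (0 : V)) = fun _ => 0 := funext fun w => at_zero b w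
    rw [h1]
    exact Kn.const 0

theorem Good.add {κ κ' : α → V} (h : Good f κ) (h' : Good f κ') :
    Good f fun a => κ a + κ' a := by
  have e : X f (fun a => κ a + κ' a) = fun w => X f κ w + X f κ' w :=
    funext fun w => X_add f κ κ' w
  constructor
  · rw [e]; exact h.1.comp₂ h'.1 fun x y => x + y
  · intro b hb
    rw [e]
    have h1 : at_ b (fun w => X f κ w + X f κ' w) =
        fun w => at_ b (X f κ) w + at_ b (X f κ') w := funext fun w => at_add b _ _ w
    rw [h1]
    exact (h.2 b hb).comp₂ (h'.2 b hb) fun x y => x + y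

theorem Good.of_adm [Finite α] {σ : S3} {κ : α → V} (h : Adm f σ κ)
    (h0 : ∀ b, f b = 1 → κ b = 0) : Good f κ :=
  ⟨X_known h, fun b hb => atX_known h (h0 b hb)⟩

open Classical in
theorem Good.single_diff [Finite α] {b : α} (hb : f b ≠ 1) {v : V}
    (hv : ac (f b) v ≠ v ∨ v = 0) : Good f fun a => if a = b then v else 0 := by
  rcases hv with hv | hv
  · obtain ⟨σ, u, u', hu, hu', huv⟩ := adm_diff (f b) v hv
    choose d hd hd1 using adm_ex σ
    have h1 : ∀ x : V, adm σ (f b) x →
        Good f fun a => if a = b then x else d (f a) := by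
      intro x hx
      apply Good.of_adm (σ := σ)
      · intro a
        by_cases ha : a = b
        · simp only [if_pos ha]; rw [ha]; exact hx
        · simp only [if_neg ha]; exact hd (f a)
      · intro a ha
        have hab : a ≠ b := fun h => hb (by rw [← h]; exact ha)
        rw [if_neg hab]
        exact hd1 _ ha
    have h2 := (h1 u hu).add (h1 u' hu')
    refine Eq.mp (congrArg (Good f) ?_) h2
    funext a
    by_cases ha : a = b
    · rw [if_pos ha, if_pos ha, if_pos ha, huv]
    · rw [if_neg ha, if_neg ha, if_neg ha, vv]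
  · rw [hv]
    refine Eq.mp (congrArg (Good f) ?_) Good.zero
    funext a
    rw [ite_self]

open Classical in
theorem Good.single [Finite α] {b : α} (hb : f b ≠ 1) (v : V) :
    Good f fun a => if a = b then v else 0 := by
  obtain ⟨v', v'', h1, h2, h3⟩ := decomp (f b) hb v
  refine Eq.mp (congrArg (Good f) ?_) ((Good.single_diff hb h1).add (Good.single_diff hb h2))
  funext a
  by_cases ha : a = b
  · rw [if_pos ha, if_pos ha, if_pos ha, h3]
  · rw [if_neg ha, if_neg ha, if_neg ha, add_zero]

theorem Good.all [Finite α] (κ : α → V) (hκ : ∀ b, f b = 1 → κ b = 0) : Good f κ := by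
  classical
  have := Fintype.ofFinite α
  have h : ∀ s : Finset α, Good f fun a => if a ∈ s then κ a else 0 := by
    intro s
    induction s using Finset.induction_on with
    | empty =>
      refine Eq.mp (congrArg (Good f) ?_) Good.zero
      funext a
      exact (if_neg (Finset.notMem_empty a)).symm
    | insert b s hbs ih =>
      have h1 : Good f fun a => if a = b then κ b else 0 := by
        by_cases hb : f b = 1
        · rw [hκ b hb]
          refine Eq.mp (congrArg (Good f) ?_) Good.zero
          funext a
          rw [ite_self]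
        · exact Good.single hb (κ b)
      refine Eq.mp (congrArg (Good f) ?_) (h1.add ih)
      funext a
      by_cases ha : a = b
      · rw [if_pos ha, ha, if_neg hbs, if_pos (Finset.mem_insert_self _ _), add_zero]
      · by_cases has : a ∈ s
        · rw [if_neg ha, if_pos has, if_pos (Finset.mem_insert_of_mem has), zero_add]
        · rw [if_neg ha, if_neg has, if_neg (fun h => (Finset.mem_insert.1 h).elim ha has),
            zero_add]
  refine Eq.mp (congrArg (Good f) ?_) (h Finset.univ)
  funext a
  exact if_pos (Finset.mem_univ a)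

variable (f)

theorem X_principal (v : V) (w : List α) :
    X f (fun a => v + ac (f a) v) w = v + ac (pf f w) v := by
  induction w using List.reverseRecOn with
  | nil => rw [X_nil, pf_nil, ac_one, vv]
  | append_singleton w x ih =>
    rw [X_snoc, ih, ac_add, ← ac_mul, ← pf_snoc, add_assoc, ← add_assoc (ac (pf f w) v), vv,
      zero_add]

theorem count_known [Finite α] (b : α) : KnZ (at_ b fun _ : List α => (1 : ℤ)) := by
  refine (len_known (fun (_ : Unit) _ => ()) b ()).congr fun w => ?_
  rw [W_eq_at]

theorem Y_known [Finite α] (b : α) (v : V) : Kn (at_ b fun u => ac (pf f u) v) := by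
  classical
  by_cases hb : f b = 1
  · have h1 : Good f fun a => v + ac (f a) v := by
      apply Good.all
      intro a ha
      rw [ha, ac_one, vv]
    have h2 := h1.2 b hb
    have h3 : Kn (at_ b fun _ : List α => v) := by
      refine Eq.mp (congrArg Kn ?_) (zv_known (count_known b) v)
      funext w
      rw [at_hom]
      exact at_congr (fun _ => zv_one v) w
    refine Eq.mp (congrArg Kn ?_) (h2.comp₂ h3 fun x y => x + y)
    funext w
    rw [← at_add]
    refine at_congr (fun u => ?_) w
    rw [X_principal, add_comm v, add_assoc, vv, add_zero]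
  · have h1 := (Good.single hb v).1
    refine Eq.mp (congrArg Kn ?_) h1
    funext w
    refine sm_congr (fun u a => ?_) w
    show ac (pf f u) (if a = b then v else 0) = if a = b then ac (pf f u) v else 0
    by_cases ha : a = b
    · rw [if_pos ha, if_pos ha]
    · rw [if_neg ha, if_neg ha, ac_zero]

theorem fold_s2 (g : ZMod 2) (u : List α) :
    u.foldl (adda fun a => s2 (f a)) g = g + s2 (pf f u) := by
  induction u using List.reverseRecOn with
  | nil => rw [List.foldl_nil, pf_nil, s2_one, add_zero]
  | append_singleton w x ih =>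
    rw [List.foldl_append, List.foldl_cons, List.foldl_nil, ih, pf_snoc, s2_mul, adda, add_assoc]

theorem zz : ∀ a b : ZMod 2, a + b = 0 ↔ b = a := by decide

/-- reduction modulo two -/
def r2 : ℤ →+ ZMod 2 := Int.castAddHom (ZMod 2)

theorem sign_known [Finite α] (b : α) (r : ZMod 2) :
    Kn (at_ b fun u => (if s2 (pf f u) = r then 1 else 0 : ZMod 2)) := by
  have : Fact (Nat.Prime 2) := ⟨Nat.prime_two⟩
  have h1 := known_Zp (p := 2) (fun a => s2 (f a)) b r 2 two_pos
  refine Eq.mp (congrArg Kn ?_) h1
  funext w
  rw [W_eq_at]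
  show r2 _ = _
  rw [at_hom]
  refine at_congr (fun u => ?_) w
  rw [fold_s2]
  show ((ind 0 (r + s2 (pf f u)) : ℤ) : ZMod 2) = _
  by_cases h : s2 (pf f u) = r
  · rw [if_pos h, (zz r (s2 (pf f u))).2 h, ind_self, Int.cast_one]
  · rw [if_neg h, ind_ne (fun h1 => h ((zz _ _).1 h1)), Int.cast_zero]

/-- coordinate as a homomorphism -/
def coh (i : Fin 3) : V →+ ZMod 2 where
  toFun v := co v i
  map_zero' := by
    unfold co
    split_ifs
    · rfl
    · rfl
    · exact add_zero 0
  map_add' v w := co_add v w i

theorem co_known [Finite α] (b : α) (v : V) (i : Fin 3) :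
    Kn (at_ b fun u => co (ac (pf f u) v) i) := by
  refine Eq.mp (congrArg Kn ?_) ((Y_known f b v).comp (coh i))
  funext w
  exact at_hom (coh i) b _ w

theorem delta_known [Finite α] (b : α) (r : S3) :
    Kn (at_ b fun u => (if pf f u = r then 1 else 0 : ZMod 2)) := by
  have h1 := (sign_known f b (s2 r)).comp₂ (((co_known f b (vj 0) (r 0)).comp₂
    (co_known f b (vj 1) (r 1)) fun x y => x + y).comp₂ (co_known f b (vj 2) (r 2))
      fun x y => x + y) fun x y => x + y
  refine Eq.mp (congrArg Kn ?_) h1
  funext w
  rw [← at_add, ← at_add, ← at_add]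
  exact at_congr (fun u => (delta_formula _ r).symm) w

theorem fold_pf (q : S3) (u : List α) : u.foldl (fun q a => q * f a) q = q * pf f u := by
  induction u using List.reverseRecOn with
  | nil => rw [List.foldl_nil, pf_nil, mul_one]
  | append_singleton w x ih =>
    rw [List.foldl_append, List.foldl_cons, List.foldl_nil, ih, pf_snoc, mul_assoc]

/-- The number of occurrences of a letter after a prefix with given value, modulo two. -/
theorem W2_known [Finite α] (b : α) (r : S3) :
    Kn fun w : List α => ((W (fun (q : S3) a => q * f a) b (ind r) 1 w : ℤ) : ZMod 2) := by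
  refine Eq.mp (congrArg Kn ?_) (delta_known f b r)
  funext w
  rw [W_eq_at]
  show _ = r2 _
  rw [at_hom]
  refine at_congr (fun u => ?_) w
  rw [fold_pf, one_mul]
  show _ = ((ind r (pf f u) : ℤ) : ZMod 2)
  by_cases h : pf f u = r
  · rw [if_pos h, h, ind_self, Int.cast_one]
  · rw [if_neg h, ind_ne h, Int.cast_zero]

end

end Vale.Agent.P329.S4
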